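import Mathlib

/-! Real-variable analysis of the fixed point equations on `S² × S²` (row 205). -/

namespace Crest.Agent.R205

open Real

/-- the angle `k (1 - r) / (1 + k² s²)` with `k = 1/4`. -/
noncomputable def al (s r : ℝ) : ℝ := (1 / 4) * (1 - r) / (1 + (1 / 4 * s) ^ 2)

lemma den_pos (s : ℝ) : 0 < 1 + (1 / 4 * s) ^ 2 := by positivity

lemma al_nonneg {s r : ℝ} (hr : r ≤ 1) : 0 ≤ al s r := by
  unfold al
  have := den_pos s
  apply div_nonneg _ this.le
  linarith

lemma al_le {s r : ℝ} (hr : -1 ≤ r) : al s r ≤ 1 / 2 := by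
  unfold al
  have := den_pos s
  rw [div_le_iff₀ this]
  nlinarith [sq_nonneg (1 / 4 * s)]

lemma cos_ge {a : ℝ} (h0 : 0 ≤ a) (h1 : a ≤ 1 / 2) : 7 / 8 ≤ cos a := by
  have := Real.one_sub_sq_div_two_le_cos (x := a)
  nlinarith

lemma half_lt_pi_div_two : (1 / 2 : ℝ) < π / 2 := by
  have := Real.pi_gt_three
  linarith

lemma tan_sub_le {a b : ℝ} (h0 : 0 ≤ a) (hab : a ≤ b) (h1 : b ≤ 1 / 2) :
    tan b ≤ tan a + (3 / 2) * (b - a) := by
  have ha := cos_ge h0 (hab.trans h1)
  have hb := cos_ge (h0.trans hab) h1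
  have hs : sin (b - a) ≤ b - a := Real.sin_le (by linarith)
  have hapos : 0 < cos a := by linarith
  have hbpos : 0 < cos b := by linarith
  have key : tan b - tan a = sin (b - a) / (cos a * cos b) := by
    rw [Real.tan_eq_sin_div_cos, Real.tan_eq_sin_div_cos, Real.sin_sub]
    field_simp
  have hprod : 49 / 64 ≤ cos a * cos b := by nlinarith
  have : sin (b - a) / (cos a * cos b) ≤ (3 / 2) * (b - a) := by
    rw [div_le_iff₀ (by positivity)]
    nlinarith
  linarith

lemma le_tan' {a : ℝ} (h0 : 0 ≤ a) (h1 : a ≤ 1 / 2) : a ≤ tan a :=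
  Real.le_tan h0 (lt_of_le_of_lt h1 half_lt_pi_div_two)

lemma tan_le' {a : ℝ} (h0 : 0 ≤ a) (h1 : a ≤ 1 / 2) : tan a ≤ (3 / 2) * a := by
  have := tan_sub_le (a := 0) le_rfl h0 h1
  simpa using this

lemma tan_mono' {a b : ℝ} (h0 : 0 ≤ a) (hab : a ≤ b) (h1 : b ≤ 1 / 2) : tan a ≤ tan b := by
  rcases hab.eq_or_lt with h | h
  · rw [h]
  · exact (Real.tan_lt_tan_of_nonneg_of_lt_pi_div_two h0 (lt_of_le_of_lt h1 half_lt_pi_div_two) h).le

/-- `s ↦ tan (l (1 + s)) / s` is decreasing. -/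
lemma tan_ratio {l x y : ℝ} (hl : 0 < l) (hl' : l ≤ 1 / 4) (hx : 0 < x) (hxy : x < y) (hy : y ≤ 1) :
    x * tan (l * (1 + y)) < y * tan (l * (1 + x)) := by
  have h1 : tan (l * (1 + y)) ≤ tan (l * (1 + x)) + (3 / 2) * (l * (1 + y) - l * (1 + x)) :=
    tan_sub_le (by positivity) (by nlinarith) (by nlinarith)
  have h2 : l * (1 + x) ≤ tan (l * (1 + x)) := le_tan' (by positivity) (by nlinarith)
  have h3 : x * tan (l * (1 + y)) ≤ x * tan (l * (1 + x)) + x * ((3 / 2) * (l * (y - x))) := by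
    nlinarith
  have h4 : x * ((3 / 2) * (l * (y - x))) < (y - x) * (l * (1 + x)) := by
    have : 0 < l * (y - x) := by apply mul_pos hl; linarith
    nlinarith
  have h5 : (y - x) * (l * (1 + x)) ≤ (y - x) * tan (l * (1 + x)) := by
    apply mul_le_mul_of_nonneg_left h2; linarith
  nlinarith

lemma al_eq (s r : ℝ) : al s r = (1 / 4 / (1 + (1 / 4 * s) ^ 2)) * (1 + -r) := by
  unfold al; ring

lemma lam_pos (s : ℝ) : 0 < 1 / 4 / (1 + (1 / 4 * s) ^ 2) := by positivity

lemma lam_le (s : ℝ) : 1 / 4 / (1 + (1 / 4 * s) ^ 2) ≤ 1 / 4 := by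
  rw [div_le_iff₀ (den_pos s)]
  nlinarith [sq_nonneg (1 / 4 * s)]

lemma al_anti {s s' r : ℝ} (hr : r ≤ 1) (h : s ^ 2 ≤ s' ^ 2) : al s' r ≤ al s r := by
  unfold al
  apply div_le_div_of_nonneg_left (by linarith) (den_pos s)
  nlinarith

/-- the non-symmetric solutions do not exist. -/
lemma not_lt_of_eqs {x y u v : ℝ} (hx : 0 < x) (hxy : x < y) (hy : y ≤ 1)
    (huv : x ^ 2 + u ^ 2 = y ^ 2 + v ^ 2)
    (h : x * tan (al u (-y)) = y * tan (al v (-x))) : False := by
  have hv : v ^ 2 ≤ u ^ 2 := by nlinarith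
  have h1 : al u (-y) ≤ al v (-y) := al_anti (by linarith) hv
  have h2 : tan (al u (-y)) ≤ tan (al v (-y)) :=
    tan_mono' (al_nonneg (by linarith)) h1 (al_le (by linarith))
  have h3 := tan_ratio (lam_pos v) (lam_le v) hx hxy hy
  rw [al_eq v (-y)] at h2
  rw [al_eq v (-x)] at h
  simp only [neg_neg] at h h2
  nlinarith

/-- the equation for the two non-degenerate fixed points. -/
def Sol (u x : ℝ) : Prop :=
  0 < x ∧ x ^ 2 + u ^ 2 + (1 / 4 * u ^ 2) ^ 2 = 1 ∧ x * tan (al u (-x)) = 1 / 4 * u ^ 2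

lemma Sol.unique_aux {u x u' x' : ℝ} (h : Sol u x) (h' : Sol u' x') : ¬ x < x' := by
  intro hlt
  obtain ⟨hx, h1, h2⟩ := h
  obtain ⟨hx', h1', h2'⟩ := h'
  have hx'1 : x' ≤ 1 := by nlinarith [sq_nonneg u', sq_nonneg (1 / 4 * u' ^ 2)]
  have hu : u' ^ 2 ≤ u ^ 2 := by
    by_contra hc
    push Not at hc
    nlinarith [sq_nonneg u, sq_nonneg u']
  have a1 : al u (-x) ≤ al u' (-x) := al_anti (by linarith) hu
  have a2 : al u' (-x) ≤ al u' (-x') := by
    rw [al_eq, al_eq]
    have := lam_pos u'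
    nlinarith
  have a3 : tan (al u (-x)) ≤ tan (al u' (-x')) :=
    tan_mono' (al_nonneg (by linarith)) (a1.trans a2) (al_le (by linarith))
  have a4 : 0 < al u' (-x') := by
    rw [al_eq]; have := lam_pos u'; apply mul_pos this; linarith
  have a5 : 0 < tan (al u' (-x')) := lt_of_lt_of_le a4 (le_tan' a4.le (al_le (by linarith)))
  nlinarith

lemma Sol.unique {u x u' x' : ℝ} (h : Sol u x) (h' : Sol u' x') : x = x' ∧ u ^ 2 = u' ^ 2 := by
  have hx : x = x' := le_antisymm (not_lt.mp (h'.unique_aux h)) (not_lt.mp (h.unique_aux h'))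
  refine ⟨hx, ?_⟩
  obtain ⟨-, h1, -⟩ := h
  obtain ⟨-, h1', -⟩ := h'
  subst hx
  have : (u ^ 2 - u' ^ 2) * (1 + (u ^ 2 + u' ^ 2) / 16) = 0 := by nlinarith
  rcases mul_eq_zero.mp this with h | h
  · linarith
  · nlinarith [sq_nonneg u, sq_nonneg u']

lemma exists_sol : ∃ u x : ℝ, 0 < u ∧ Sol u x := by
  let X : ℝ → ℝ := fun u => √(1 - u ^ 2 - (1 / 4 * u ^ 2) ^ 2)
  let F : ℝ → ℝ := fun u => X u * tan (al u (-X u)) - 1 / 4 * u ^ 2
  have hX0 : ∀ u, 0 ≤ X u := fun u => Real.sqrt_nonneg _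
  have hX1 : ∀ u, X u ≤ 1 := fun u => by
    apply Real.sqrt_le_one.mpr
    nlinarith [sq_nonneg u, sq_nonneg (1 / 4 * u ^ 2)]
  have hXc : Continuous X := by fun_prop
  have halc : Continuous fun u => al u (-X u) := by
    unfold al
    apply Continuous.div (by fun_prop) (by fun_prop) (fun u => (den_pos u).ne')
  have hcos : ∀ u, cos (al u (-X u)) ≠ 0 := fun u => by
    have := cos_ge (al_nonneg (s := u) (r := -X u) (by linarith [hX0 u]))
      (al_le (by linarith [hX1 u]))
    linarith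
  have hFc : Continuous F := by
    have : Continuous fun u => tan (al u (-X u)) := by
      simp only [Real.tan_eq_sin_div_cos]
      exact Continuous.div (by fun_prop) (by fun_prop) hcos
    fun_prop
  have hF0 : 0 < F 0 := by
    have hX : X 0 = 1 := by simp [X]
    have h1 : al 0 (-1) = 1 / 2 := by unfold al; norm_num
    simp only [F, hX, h1]
    have := le_tan' (a := 1 / 2) (by norm_num) le_rfl
    linarith
  have hF1 : F 1 < 0 := by
    have hX : X 1 = 0 := by
      apply Real.sqrt_eq_zero_of_nonpos; norm_num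
    simp only [F, hX]; norm_num
  obtain ⟨u, hu, hFu⟩ := intermediate_value_Icc' (zero_le_one' ℝ) hFc.continuousOn
    (show (0 : ℝ) ∈ Set.Icc (F 1) (F 0) from ⟨hF1.le, hF0.le⟩)
  have hu0 : 0 < u := by
    rcases hu.1.eq_or_lt with h | h
    · rw [← h] at hFu; linarith
    · exact h
  have hXu : 0 < X u := by
    rcases (hX0 u).eq_or_lt with h | h
    · simp only [F, ← h] at hFu
      nlinarith
    · exact h
  refine ⟨u, X u, hu0, hXu, ?_, ?_⟩
  · have hpos : 0 < 1 - u ^ 2 - (1 / 4 * u ^ 2) ^ 2 := Real.sqrt_pos.mp hXu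
    have : X u ^ 2 = 1 - u ^ 2 - (1 / 4 * u ^ 2) ^ 2 := Real.sq_sqrt hpos.le
    linarith
  · simp only [F] at hFu
    linarith

/-- classification of the solutions of the reduced fixed point equations. -/
lemma classify {p1 p2 p3 q1 q2 q3 : ℝ}
    (hp : p1 ^ 2 + p2 ^ 2 + p3 ^ 2 = 1) (hq : q1 ^ 2 + q2 ^ 2 + q3 ^ 2 = 1)
    (hp3 : p3 < 1) (hq3 : q3 < 1)
    (e1 : p2 = 1 / 4 * p1 * q1) (e2 : q2 = -(1 / 4 * p1 * q1))
    (e3 : p3 * tan (al p1 q3) = -(1 / 4 * p1 * q1))
    (e4 : q3 * tan (al q1 p3) = -(1 / 4 * p1 * q1)) :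
    q1 = p1 ∧ q3 = p3 ∧ Sol p1 (-p3) := by
  have hp3' : -1 ≤ p3 := by nlinarith [sq_nonneg p1, sq_nonneg p2]
  have hq3' : -1 ≤ q3 := by nlinarith [sq_nonneg q1, sq_nonneg q2]
  have ha0 : 0 < al p1 q3 := by
    rw [al_eq]; apply mul_pos (lam_pos _); linarith
  have hd0 : 0 < al q1 p3 := by
    rw [al_eq]; apply mul_pos (lam_pos _); linarith
  have ha : 0 < tan (al p1 q3) := lt_of_lt_of_le ha0 (le_tan' ha0.le (al_le hq3'))
  have hd : 0 < tan (al q1 p3) := lt_of_lt_of_le hd0 (le_tan' hd0.le (al_le hp3'))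
  have hsum : p3 ^ 2 + p1 ^ 2 = q3 ^ 2 + q1 ^ 2 := by
    rw [e1] at hp; rw [e2] at hq; linear_combination hp - hq
  rcases lt_trichotomy (p1 * q1) 0 with hneg | hzero | hpos
  · exfalso
    have hp3pos : 0 < p3 := by
      by_contra hc; push Not at hc
      have := mul_nonpos_of_nonpos_of_nonneg hc ha.le
      linarith
    have hq3pos : 0 < q3 := by
      by_contra hc; push Not at hc
      have := mul_nonpos_of_nonpos_of_nonneg hc hd.le
      linarith
    have ta := tan_le' ha0.le (al_le hq3')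
    have td := tan_le' hd0.le (al_le hp3')
    have Dp := den_pos p1
    have Dq := den_pos q1
    have b1 : -(1 / 4 * p1 * q1) * (1 + (1 / 4 * p1) ^ 2) ≤ p3 * ((3 / 2) * (1 / 4 * (1 - q3))) := by
      have : al p1 q3 * (1 + (1 / 4 * p1) ^ 2) = 1 / 4 * (1 - q3) := by
        unfold al; field_simp
      rw [← e3, ← this]
      have h1 : p3 * tan (al p1 q3) ≤ p3 * (3 / 2 * al p1 q3) :=
        mul_le_mul_of_nonneg_left ta hp3pos.le
      have h2 := mul_le_mul_of_nonneg_right h1 Dp.le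
      linarith
    have b2 : -(1 / 4 * p1 * q1) * (1 + (1 / 4 * q1) ^ 2) ≤ q3 * ((3 / 2) * (1 / 4 * (1 - p3))) := by
      have : al q1 p3 * (1 + (1 / 4 * q1) ^ 2) = 1 / 4 * (1 - p3) := by
        unfold al; field_simp
      rw [← e4, ← this]
      have h1 : q3 * tan (al q1 p3) ≤ q3 * (3 / 2 * al q1 p3) :=
        mul_le_mul_of_nonneg_left td hq3pos.le
      have h2 := mul_le_mul_of_nonneg_right h1 Dq.le
      linarith
    have c1 : p1 ^ 2 * (1 + (1 / 4 * q1) ^ 2) = (1 - p3) * (1 + p3) := by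
      rw [e1] at hp; linear_combination hp
    have c2 : q1 ^ 2 * (1 + (1 / 4 * p1) ^ 2) = (1 - q3) * (1 + q3) := by
      rw [e2] at hq; linear_combination hq
    have hA : 0 ≤ -(1 / 4 * p1 * q1) * (1 + (1 / 4 * p1) ^ 2) := by
      apply mul_nonneg _ Dp.le; linarith
    have hB : 0 ≤ -(1 / 4 * p1 * q1) * (1 + (1 / 4 * q1) ^ 2) := by
      apply mul_nonneg _ Dq.le; linarith
    have hprod := mul_le_mul b1 b2 hB (hA.trans b1)
    have hL : -(1 / 4 * p1 * q1) * (1 + (1 / 4 * p1) ^ 2) *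
        (-(1 / 4 * p1 * q1) * (1 + (1 / 4 * q1) ^ 2)) =
        1 / 16 * (((1 - p3) * (1 + p3)) * ((1 - q3) * (1 + q3))) := by
      rw [← c1, ← c2]; ring
    rw [hL] at hprod
    have hw : 0 < (1 - p3) * (1 - q3) := mul_pos (by linarith) (by linarith)
    have hfin : (1 + p3) * (1 + q3) ≤ 9 / 4 * (p3 * q3) := by
      have h' : ((1 - p3) * (1 - q3)) * ((1 + p3) * (1 + q3)) ≤
          ((1 - p3) * (1 - q3)) * (9 / 4 * (p3 * q3)) := by
        linarith [hprod]
      exact le_of_mul_le_mul_left h' hw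
    have g1 : p3 * q3 < p3 := by
      have := mul_lt_mul_of_pos_left hq3 hp3pos
      linarith
    have g2 : p3 * q3 < q3 := by
      have := mul_lt_mul_of_pos_left hp3 hq3pos
      linarith
    linarith
  · exfalso
    have hz : 1 / 4 * p1 * q1 = 0 := by linarith
    rw [hz] at e1 e2 e3 e4
    have h3 : p3 = 0 := by
      rcases mul_eq_zero.mp (e3.trans neg_zero) with h | h
      · exact h
      · exact absurd h ha.ne'
    have h4 : q3 = 0 := by
      rcases mul_eq_zero.mp (e4.trans neg_zero) with h | h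
      · exact h
      · exact absurd h hd.ne'
    rcases mul_eq_zero.mp hzero with h | h
    · rw [h, e1, h3] at hp; norm_num at hp
    · rw [h, e2, h4] at hq; norm_num at hq
  · have hp3neg : p3 < 0 := by
      by_contra hc; push Not at hc
      have := mul_nonneg hc ha.le
      linarith
    have hq3neg : q3 < 0 := by
      by_contra hc; push Not at hc
      have := mul_nonneg hc hd.le
      linarith
    have h33 : q3 = p3 := by
      rcases lt_trichotomy q3 p3 with h | h | h
      · exfalso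
        refine not_lt_of_eqs (x := -p3) (y := -q3) (u := p1) (v := q1) (by linarith) (by linarith)
          (by linarith) (by linear_combination hsum) ?_
        simp only [neg_neg]; linarith
      · exact h
      · exfalso
        refine not_lt_of_eqs (x := -q3) (y := -p3) (u := q1) (v := p1) (by linarith) (by linarith)
          (by linarith) (by linear_combination -hsum) ?_
        simp only [neg_neg]; linarith
    have h11 : q1 = p1 := by
      have : (q1 - p1) * (q1 + p1) = 0 := by rw [h33] at hsum; linear_combination -hsum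
      rcases mul_eq_zero.mp this with h | h
      · linarith
      · have : q1 = -p1 := by linarith
        rw [this] at hpos
        have h0 := mul_self_nonneg p1
        linarith
    refine ⟨h11, h33, by linarith, ?_, ?_⟩
    · rw [e1, h11] at hp; linear_combination hp
    · rw [h11, h33] at e3; simp only [neg_neg]; linarith

end Crest.Agent.R205
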