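import Mathlib
import Crest.Prelude.Def_QuadricHamiltonian
import Crest.Agent.R205.Real

/-! Explicit Hamiltonian flows on complex 5-space (row 205). -/

namespace Crest.Agent.R205

open Crest.GeometryTopology.Quadric
open scoped ContDiff

abbrev V : Type := Fin 5 → ℂ

/-- the complex bilinear form. -/
def bil (u w : V) : ℂ := ∑ j, u j * w j

lemma herm_add_left (u v w : V) : herm (u + v) w = herm u w + herm v w := by
  simp [herm, add_mul, Finset.sum_add_distrib]

lemma herm_add_right (u v w : V) : herm u (v + w) = herm u v + herm u w := by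
  simp [herm, mul_add, Finset.sum_add_distrib]

lemma herm_rsmul_left (r : ℝ) (u w : V) : herm (r • u) w = r * herm u w := by
  simp [herm, Finset.mul_sum, mul_assoc]

lemma herm_rsmul_right (r : ℝ) (u w : V) : herm u (r • w) = r * herm u w := by
  simp [herm, Finset.mul_sum, mul_left_comm]

lemma herm_smul_left (c : ℂ) (u w : V) : herm (c • u) w = starRingEnd ℂ c * herm u w := by
  simp [herm, Finset.mul_sum, mul_assoc]

lemma herm_smul_right (c : ℂ) (u w : V) : herm u (c • w) = c * herm u w := by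
  simp [herm, Finset.mul_sum, mul_left_comm]

lemma herm_neg_right (u w : V) : herm u (-w) = -herm u w := by
  simp [herm]

lemma herm_neg_left (u w : V) : herm (-u) w = -herm u w := by
  simp [herm]

lemma herm_conj (u w : V) : herm w u = starRingEnd ℂ (herm u w) := by
  simp [herm, mul_comm]

lemma bil_add_left (u v w : V) : bil (u + v) w = bil u w + bil v w := by
  simp [bil, add_mul, Finset.sum_add_distrib]

lemma bil_add_right (u v w : V) : bil u (v + w) = bil u v + bil u w := by
  simp [bil, mul_add, Finset.sum_add_distrib]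

lemma bil_rsmul_left (r : ℝ) (u w : V) : bil (r • u) w = r * bil u w := by
  simp [bil, Finset.mul_sum, mul_assoc]

lemma bil_rsmul_right (r : ℝ) (u w : V) : bil u (r • w) = r * bil u w := by
  simp [bil, Finset.mul_sum, mul_left_comm]

lemma bil_neg_right (u w : V) : bil u (-w) = -bil u w := by
  simp [bil]

lemma mem_cone_iff (z : V) : z ∈ unitCone ↔ herm z z = 1 ∧ bil z z = 0 := by
  simp [unitCone, bil, sq]

/-- projection to the first four coordinates. -/
noncomputable def P : V →L[ℂ] V := LinearMap.toContinuousLinearMap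
  { toFun := fun z => ![z 0, z 1, z 2, z 3, 0]
    map_add' := fun u w => by ext i; fin_cases i <;> simp
    map_smul' := fun c u => by ext i; fin_cases i <;> simp }

lemma P_apply (z : V) : P z = ![z 0, z 1, z 2, z 3, 0] := rfl

lemma herm_P (u w : V) : herm (P u) w = herm u (P w) := by
  simp [herm, P_apply, Fin.sum_univ_five]

lemma bil_P (u w : V) : bil (P u) w = bil u (P w) := by
  simp [bil, P_apply, Fin.sum_univ_five]

lemma PP (z : V) : P (P z) = P z := by
  ext i; fin_cases i <;> simp [P_apply]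

/-- a real skew complex structure on the first four coordinates. -/
structure Good (A : V →L[ℂ] V) : Prop where
  sq : ∀ z, A (A z) = -P z
  skew : ∀ u w, herm (A u) w = -herm u (A w)
  bskew : ∀ u w, bil (A u) w = -bil u (A w)
  AP : ∀ z, A (P z) = A z
  PA : ∀ z, P (A z) = A z

/-- the rotation `exp (θ A)`. -/
noncomputable def rot (A : V →L[ℂ] V) (θ : ℝ) (z : V) : V :=
  z + (Real.cos θ - 1) • P z + Real.sin θ • A z

/-- the moment map component of `A`. -/
noncomputable def mu (A : V →L[ℂ] V) (z : V) : ℝ := (herm z (A z)).im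

variable {A B C D : V →L[ℂ] V}

lemma rot_zero (z : V) : rot A 0 z = z := by simp [rot]

lemma rot_smul (θ : ℝ) (c : ℂ) (z : V) : rot A θ (c • z) = c • rot A θ z := by
  simp only [rot, map_smul, smul_add]
  rw [smul_comm c (Real.cos θ - 1), smul_comm c (Real.sin θ)]

lemma rot_add (θ : ℝ) (u w : V) : rot A θ (u + w) = rot A θ u + rot A θ w := by
  simp only [rot, map_add, smul_add]; abel

lemma rot_rsmul (θ r : ℝ) (z : V) : rot A θ (r • z) = r • rot A θ z := by
  simp only [rot, ContinuousLinearMap.map_smul_of_tower, smul_add]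
  rw [smul_comm r (Real.cos θ - 1), smul_comm r (Real.sin θ)]

lemma mu_smul (c : ℂ) (hc : ‖c‖ = 1) (z : V) : mu A (c • z) = mu A z := by
  have h : starRingEnd ℂ c * c = 1 := by
    rw [Complex.conj_mul', hc]; simp
  simp only [mu, map_smul, herm_smul_left, herm_smul_right]
  rw [← mul_assoc, mul_comm c, h, one_mul]

lemma herm_rot (hA : Good A) (θ : ℝ) (u w : V) : herm (rot A θ u) (rot A θ w) = herm u w := by
  have h1 : ((Real.cos θ : ℝ) : ℂ) ^ 2 + ((Real.sin θ : ℝ) : ℂ) ^ 2 = 1 := by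
    exact_mod_cast Real.cos_sq_add_sin_sq θ
  simp only [rot, herm_add_left, herm_add_right, herm_rsmul_left, herm_rsmul_right, hA.skew,
    herm_P, PP, hA.AP, hA.PA, hA.sq, herm_neg_right]
  push_cast at h1 ⊢
  linear_combination (herm u (P w)) * h1

lemma bil_rot (hA : Good A) (θ : ℝ) (u w : V) : bil (rot A θ u) (rot A θ w) = bil u w := by
  have h1 : ((Real.cos θ : ℝ) : ℂ) ^ 2 + ((Real.sin θ : ℝ) : ℂ) ^ 2 = 1 := by
    exact_mod_cast Real.cos_sq_add_sin_sq θ
  simp only [rot, bil_add_left, bil_add_right, bil_rsmul_left, bil_rsmul_right, hA.bskew,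
    bil_P, PP, hA.AP, hA.PA, hA.sq, bil_neg_right]
  push_cast at h1 ⊢
  linear_combination (bil u (P w)) * h1

lemma rot_mem (hA : Good A) (θ : ℝ) {z : V} (hz : z ∈ unitCone) : rot A θ z ∈ unitCone := by
  rw [mem_cone_iff] at hz ⊢
  rw [herm_rot hA, bil_rot hA]; exact hz

lemma rot_comm (hC : Good C) (h : ∀ z, C (A z) = A (C z)) (θ : ℝ) (z : V) :
    C (rot A θ z) = rot A θ (C z) := by
  simp only [rot, map_add, ContinuousLinearMap.map_smul_of_tower, h, hC.AP, hC.PA]

lemma mu_rot_comm (hA : Good A) (hC : Good C) (h : ∀ z, C (A z) = A (C z)) (θ : ℝ) (z : V) :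
    mu C (rot A θ z) = mu C z := by
  simp only [mu]
  rw [rot_comm hC h, herm_rot hA]

lemma mu_rot_fst (hA : Good A) (hC : Good C) (hD : Good D) (h1 : ∀ z, C (A z) = D z)
    (h2 : ∀ z, A (C z) = -D z) (θ : ℝ) (z : V) :
    mu C (rot A θ z) = (Real.cos θ ^ 2 - Real.sin θ ^ 2) * mu C z
      + 2 * Real.sin θ * Real.cos θ * mu D z := by
  have h3 : A (D z) = C z := by
    rw [← h1, h2, ← h1, hA.sq, map_neg, neg_neg, hC.AP]
  have : herm (rot A θ z) (C (rot A θ z)) =
      ((Real.cos θ ^ 2 - Real.sin θ ^ 2 : ℝ) : ℂ) * herm z (C z)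
        + ((2 * Real.sin θ * Real.cos θ : ℝ) : ℂ) * herm z (D z) := by
    simp only [rot, map_add, ContinuousLinearMap.map_smul_of_tower, herm_add_left, herm_add_right,
      herm_rsmul_left, herm_rsmul_right, hA.skew, herm_P, hC.AP, hC.PA, hD.PA, h1, h2, h3,
      herm_neg_right]
    push_cast
    ring
  simp only [mu, this, Complex.add_im, Complex.im_ofReal_mul]

lemma mu_rot_snd (hA : Good A) (hC : Good C) (hD : Good D) (h1 : ∀ z, C (A z) = D z)
    (h2 : ∀ z, A (C z) = -D z) (θ : ℝ) (z : V) :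
    mu D (rot A θ z) = (Real.cos θ ^ 2 - Real.sin θ ^ 2) * mu D z
      - 2 * Real.sin θ * Real.cos θ * mu C z := by
  have h3 : ∀ z, A (D z) = C z := fun z => by
    rw [← h1, h2, ← h1, hA.sq, map_neg, neg_neg, hC.AP]
  have h4 : ∀ z, D (A z) = -C z := fun z => by
    rw [← h1, hA.sq, map_neg, hC.AP]
  have : herm (rot A θ z) (D (rot A θ z)) =
      ((Real.cos θ ^ 2 - Real.sin θ ^ 2 : ℝ) : ℂ) * herm z (D z)
        + ((-(2 * Real.sin θ * Real.cos θ) : ℝ) : ℂ) * herm z (C z) := by
    simp only [rot, map_add, ContinuousLinearMap.map_smul_of_tower, herm_add_left,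
      herm_add_right, herm_rsmul_left, herm_rsmul_right, hA.skew, herm_P, hD.AP, hC.PA, hD.PA,
      h2, h3, h4, herm_neg_right, neg_neg]
    push_cast
    ring
  simp only [mu, this, Complex.add_im, Complex.im_ofReal_mul]
  ring

lemma rot_four (hA : Good A) (θ : ℝ) (z : V) : rot A θ z 4 = z 4 := by
  have hP : ∀ u : V, P u 4 = 0 := fun u => rfl
  have h : A z 4 = 0 := by rw [← hA.PA, hP]
  simp only [rot, Pi.add_apply, Pi.smul_apply, h, hP, smul_zero, add_zero]

lemma A_rot (hA : Good A) (θ : ℝ) (z : V) :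
    A (rot A θ z) = (-Real.sin θ) • P z + Real.cos θ • A z := by
  simp only [rot, map_add, ContinuousLinearMap.map_smul_of_tower, hA.AP, hA.sq]
  module

lemma hasDerivAt_rot (hA : Good A) {θ : ℝ → ℝ} {w : ℝ → V} {θ' : ℝ} {w' : V} {t : ℝ}
    (hθ : HasDerivAt θ θ' t) (hw : HasDerivAt w w' t) :
    HasDerivAt (fun s => rot A (θ s) (w s))
      (θ' • A (rot A (θ t) (w t)) + rot A (θ t) w') t := by
  have hP : HasDerivAt (fun s => P (w s)) (P w') t :=
    (P.restrictScalars ℝ).hasFDerivAt.comp_hasDerivAt t hw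
  have hAw : HasDerivAt (fun s => A (w s)) (A w') t :=
    (A.restrictScalars ℝ).hasFDerivAt.comp_hasDerivAt t hw
  have h := (hw.add ((hθ.cos.sub_const 1).smul hP)).add (hθ.sin.smul hAw)
  refine HasDerivAt.congr_deriv h ?_
  rw [A_rot hA]
  simp only [rot]
  module

/-! ### smoothness -/

lemma contDiff_herm {E : Type} [NormedAddCommGroup E] [NormedSpace ℝ E] {f g : E → V}
    (hf : ContDiff ℝ ∞ f) (hg : ContDiff ℝ ∞ g) : ContDiff ℝ ∞ fun x => herm (f x) (g x) := by
  unfold herm
  apply ContDiff.sum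
  intro j _
  apply ContDiff.mul
  · exact Complex.conjCLE.contDiff.comp ((contDiff_apply ℝ ℂ j).comp hf)
  · exact (contDiff_apply ℝ ℂ j).comp hg

lemma contDiff_op {E : Type} [NormedAddCommGroup E] [NormedSpace ℝ E] (A : V →L[ℂ] V) {f : E → V}
    (hf : ContDiff ℝ ∞ f) : ContDiff ℝ ∞ fun x => A (f x) :=
  (A.restrictScalars ℝ).contDiff.comp hf

lemma contDiff_mu {E : Type} [NormedAddCommGroup E] [NormedSpace ℝ E] (A : V →L[ℂ] V) {f : E → V}
    (hf : ContDiff ℝ ∞ f) : ContDiff ℝ ∞ fun x => mu A (f x) :=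
  Complex.imCLM.contDiff.comp (contDiff_herm hf (contDiff_op A hf))

lemma contDiff_rot {E : Type} [NormedAddCommGroup E] [NormedSpace ℝ E] (A : V →L[ℂ] V)
    {θ : E → ℝ} {f : E → V} (hθ : ContDiff ℝ ∞ θ) (hf : ContDiff ℝ ∞ f) :
    ContDiff ℝ ∞ fun x => rot A (θ x) (f x) := by
  unfold rot
  exact (hf.add ((hθ.cos.sub contDiff_const).smul (contDiff_op P hf))).add
    (hθ.sin.smul (contDiff_op A hf))

lemma contDiff_al {E : Type} [NormedAddCommGroup E] [NormedSpace ℝ E] {f g : E → ℝ}
    (hf : ContDiff ℝ ∞ f) (hg : ContDiff ℝ ∞ g) : ContDiff ℝ ∞ fun x => al (f x) (g x) := by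
  unfold al
  exact ContDiff.div (by fun_prop) (by fun_prop) (fun x => (den_pos _).ne')

/-! ### the integrable flows -/

noncomputable def ang1 (κ : ℝ) (A B : V →L[ℂ] V) (z : V) : ℝ := κ + al (mu A z) (mu B z)

noncomputable def ang2 (A : V →L[ℂ] V) (z : V) : ℝ := -Real.arctan (1 / 4 * mu A z)

noncomputable def flow (κ : ℝ) (A B : V →L[ℂ] V) (s : ℝ) (z : V) : V :=
  rot A (s * ang1 κ A B z) (rot B (s * ang2 A z) z)

noncomputable def Ham (κ : ℝ) (A B : V →L[ℂ] V) (z : V) : ℝ :=
  -(κ * mu A z + Real.arctan (1 / 4 * mu A z) * (1 - mu B z))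

/-- the Hamiltonian vector field. -/
noncomputable def vf (κ : ℝ) (A B : V →L[ℂ] V) (z : V) : V :=
  ang1 κ A B z • A z + ang2 A z • B z

lemma contDiff_flow {E : Type} [NormedAddCommGroup E] [NormedSpace ℝ E] (κ : ℝ)
    (A B : V →L[ℂ] V) {s : E → ℝ} {f : E → V} (hs : ContDiff ℝ ∞ s) (hf : ContDiff ℝ ∞ f) :
    ContDiff ℝ ∞ fun x => flow κ A B (s x) (f x) := by
  unfold flow ang1 ang2
  apply contDiff_rot
  · exact hs.mul (contDiff_const.add (contDiff_al (contDiff_mu A hf) (contDiff_mu B hf)))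
  · apply contDiff_rot _ _ hf
    exact hs.mul (Real.contDiff_arctan.comp (contDiff_const.mul (contDiff_mu A hf))).neg

lemma contDiff_Ham {E : Type} [NormedAddCommGroup E] [NormedSpace ℝ E] (κ : ℝ)
    (A B : V →L[ℂ] V) {f : E → V} (hf : ContDiff ℝ ∞ f) :
    ContDiff ℝ ∞ fun x => Ham κ A B (f x) := by
  unfold Ham
  exact ((contDiff_const.mul (contDiff_mu A hf)).add
    ((Real.contDiff_arctan.comp (contDiff_const.mul (contDiff_mu A hf))).mul
      (contDiff_const.sub (contDiff_mu B hf)))).neg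

lemma flow_zero (κ : ℝ) (z : V) : flow κ A B 0 z = z := by simp [flow, rot_zero]

lemma flow_mem (hA : Good A) (hB : Good B) (κ s : ℝ) {z : V} (hz : z ∈ unitCone) :
    flow κ A B s z ∈ unitCone := rot_mem hA _ (rot_mem hB _ hz)

lemma flow_smul (κ s : ℝ) (c : ℂ) (hc : ‖c‖ = 1) (z : V) :
    flow κ A B s (c • z) = c • flow κ A B s z := by
  simp only [flow, ang1, ang2, mu_smul c hc, rot_smul]

lemma Ham_smul (κ : ℝ) (c : ℂ) (hc : ‖c‖ = 1) (z : V) : Ham κ A B (c • z) = Ham κ A B z := by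
  simp only [Ham, mu_smul c hc]

lemma mu_flow_fst (hA : Good A) (hB : Good B) (h : ∀ z, A (B z) = B (A z)) (κ s : ℝ) (z : V) :
    mu A (flow κ A B s z) = mu A z := by
  rw [flow, mu_rot_comm hA hA (fun _ => rfl), mu_rot_comm hB hA h]

lemma mu_flow_snd (hA : Good A) (hB : Good B) (h : ∀ z, A (B z) = B (A z)) (κ s : ℝ) (z : V) :
    mu B (flow κ A B s z) = mu B z := by
  rw [flow, mu_rot_comm hA hB (fun z => (h z).symm), mu_rot_comm hB hB (fun _ => rfl)]

lemma hasDerivAt_flow (hA : Good A) (hB : Good B) (h : ∀ z, A (B z) = B (A z)) (κ : ℝ) (z : V)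
    {β : ℝ → ℝ} {β' t : ℝ} (hβ : HasDerivAt β β' t) :
    HasDerivAt (fun s => flow κ A B (β s) z) (β' • vf κ A B (flow κ A B (β t) z)) t := by
  have h1 := hasDerivAt_rot hB (hβ.mul_const (ang2 A z)) (hasDerivAt_const t z)
  have h2 := hasDerivAt_rot hA (hβ.mul_const (ang1 κ A B z)) h1
  refine HasDerivAt.congr_deriv h2 ?_
  have e0 : rot B (β t * ang2 A z) (0 : V) = 0 := by simp [rot]
  have e1 : ang1 κ A B (flow κ A B (β t) z) = ang1 κ A B z := by
    simp only [ang1, mu_flow_fst hA hB h, mu_flow_snd hA hB h]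
  have e2 : ang2 A (flow κ A B (β t) z) = ang2 A z := by
    simp only [ang2, mu_flow_fst hA hB h]
  rw [e0, add_zero, rot_rsmul, ← rot_comm hB (fun z => (h z).symm), vf, e1, e2]
  simp only [flow]
  module

lemma fderiv_line {E : Type} [NormedAddCommGroup E] [NormedSpace ℝ E] {f : V → E} {z w : V} {d : E}
    (hf : DifferentiableAt ℝ f z) (h : HasDerivAt (fun s : ℝ => f (z + s • w)) d 0) :
    fderiv ℝ f z w = d := by
  have h1 : HasDerivAt (fun s : ℝ => z + s • w) w 0 := by
    simpa using ((hasDerivAt_id (0 : ℝ)).smul_const w).const_add z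
  have h2 : HasFDerivAt f (fderiv ℝ f z) (z + (0 : ℝ) • w) := by
    simpa using hf.hasFDerivAt
  exact (h2.comp_hasDerivAt (0 : ℝ) h1).unique h

lemma hasDerivAt_mu_line (hA : Good A) (z w : V) :
    HasDerivAt (fun s : ℝ => mu A (z + s • w)) (-2 * (herm (A z) w).im) 0 := by
  have e : (fun s : ℝ => mu A (z + s • w)) =
      fun s => mu A z + s * (-2 * (herm (A z) w).im) + s ^ 2 * mu A w := by
    funext s
    have h1 : (herm w (A z)).im = -(herm (A z) w).im := by
      rw [herm_conj]; simp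
    have h2 : (herm z (A w)).im = -(herm (A z) w).im := by
      rw [hA.skew]; simp
    simp only [mu, map_add, ContinuousLinearMap.map_smul_of_tower, herm_add_left, herm_add_right,
      herm_rsmul_left, herm_rsmul_right, Complex.add_im, Complex.im_ofReal_mul, h1, h2]
    ring
  rw [e]
  have := (((hasDerivAt_id (0 : ℝ)).mul_const (-2 * (herm (A z) w).im)).const_add (mu A z)).add
    (((hasDerivAt_id (0 : ℝ)).pow 2).mul_const (mu A w))
  refine HasDerivAt.congr_deriv this ?_
  simp

lemma hasDerivAt_Ham_line (hA : Good A) (hB : Good B) (κ : ℝ) (z w : V) :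
    HasDerivAt (fun s : ℝ => Ham κ A B (z + s • w)) (2 * (herm (vf κ A B z) w).im) 0 := by
  have a := hasDerivAt_mu_line hA z w
  have b := hasDerivAt_mu_line hB z w
  have h := ((a.const_mul κ).add (((a.const_mul (1 / 4)).arctan).mul (b.const_sub 1))).neg
  refine HasDerivAt.congr_deriv h ?_
  simp only [vf, herm_add_left, herm_rsmul_left, Complex.add_im, Complex.im_ofReal_mul, ang1, ang2,
    al, zero_smul, add_zero]
  have := den_pos (mu A z)
  field_simp
  ring

end Crest.Agent.R205
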