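import Mathlib
import Crest.Agent.R205.Real

/-! The induced map on `S² × S²` and its fixed points (row 205). -/

namespace Crest.Agent.R205

open Real

noncomputable def rA (θ a b : ℝ) : ℝ := (cos θ ^ 2 - sin θ ^ 2) * a + 2 * sin θ * cos θ * b

noncomputable def rB (θ a b : ℝ) : ℝ := (cos θ ^ 2 - sin θ ^ 2) * b - 2 * sin θ * cos θ * a

lemma sin_eq_tan_mul {θ : ℝ} (hc : cos θ ≠ 0) : sin θ = tan θ * cos θ := by
  rw [Real.tan_eq_sin_div_cos]; field_simp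

lemma rB_of {θ a b : ℝ} (hc : cos θ ≠ 0) (h : a = -(tan θ * b)) :
    rB θ a b = b ∧ rA θ a b = -a := by
  have h1 := Real.cos_sq_add_sin_sq θ
  have hs := sin_eq_tan_mul hc
  unfold rA rB
  rw [hs] at h1 ⊢
  subst h
  constructor
  · linear_combination b * h1
  · linear_combination (tan θ * b) * h1

lemma rA_of {θ a b : ℝ} (hc : cos θ ≠ 0) (h : b = tan θ * a) :
    rA θ a b = a ∧ rB θ a b = -b := by
  have h1 := Real.cos_sq_add_sin_sq θ
  have hs := sin_eq_tan_mul hc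
  unfold rA rB
  rw [hs] at h1 ⊢
  subst h
  constructor
  · linear_combination a * h1
  · linear_combination (-(tan θ * a)) * h1

lemma rB_fixed {θ a b : ℝ} (hc : cos θ ≠ 0) (h : rB θ a b = b) :
    (tan θ = 0 ∧ rA θ a b = a) ∨ (a = -(tan θ * b) ∧ rA θ a b = -a) := by
  have h1 := Real.cos_sq_add_sin_sq θ
  have hs := sin_eq_tan_mul hc
  by_cases ht : tan θ = 0
  · left
    refine ⟨ht, ?_⟩
    unfold rA
    rw [hs, ht] at h1 ⊢
    linear_combination a * h1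
  · right
    have h2 : a = -(tan θ * b) := by
      unfold rB at h
      rw [hs] at h1 h
      have : (2 * tan θ * cos θ ^ 2) * (a + tan θ * b) = 0 := by
        linear_combination b * h1 - h
      have h3 : 2 * tan θ * cos θ ^ 2 ≠ 0 := by positivity
      have := (mul_eq_zero.mp this).resolve_left h3
      linarith
    exact ⟨h2, (rB_of hc h2).2⟩

lemma rA_fixed {θ a b : ℝ} (hc : cos θ ≠ 0) (h : rA θ a b = a) :
    (tan θ = 0 ∧ rB θ a b = b) ∨ (b = tan θ * a ∧ rB θ a b = -b) := by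
  have h1 := Real.cos_sq_add_sin_sq θ
  have hs := sin_eq_tan_mul hc
  by_cases ht : tan θ = 0
  · left
    refine ⟨ht, ?_⟩
    unfold rB
    rw [hs, ht] at h1 ⊢
    linear_combination b * h1
  · right
    have h2 : b = tan θ * a := by
      unfold rA at h
      rw [hs] at h1 h
      have : (2 * tan θ * cos θ ^ 2) * (b - tan θ * a) = 0 := by
        linear_combination h - a * h1
      have h3 : 2 * tan θ * cos θ ^ 2 ≠ 0 := by positivity
      have := (mul_eq_zero.mp this).resolve_left h3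
      linarith
    exact ⟨h2, (rA_of hc h2).2⟩

lemma cos_al_ne {s r : ℝ} (h0 : -1 ≤ r) (h1 : r ≤ 1) : cos (al s r) ≠ 0 := by
  have := cos_ge (al_nonneg (s := s) h1) (al_le h0)
  linarith

lemma cos_pi_al_ne {s r : ℝ} (h0 : -1 ≤ r) (h1 : r ≤ 1) : cos (π + al s r) ≠ 0 := by
  rw [add_comm, Real.cos_add_pi]
  exact neg_ne_zero.mpr (cos_al_ne h0 h1)

lemma tan_pi_al (s r : ℝ) : tan (π + al s r) = tan (al s r) := by
  rw [add_comm, Real.tan_add_pi]

lemma cos_arc_ne (x : ℝ) : cos (-arctan x) ≠ 0 := by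
  rw [Real.cos_neg]; exact (Real.cos_arctan_pos x).ne'

lemma tan_arc (x : ℝ) : tan (-arctan x) = -x := by
  rw [Real.tan_neg, Real.tan_arctan]

lemma tan_al_pos {s r : ℝ} (h0 : -1 ≤ r) (h1 : r < 1) : 0 < tan (al s r) := by
  have ha0 : 0 < al s r := by
    rw [al_eq]; apply mul_pos (lam_pos _); linarith
  exact lt_of_lt_of_le ha0 (le_tan' ha0.le (al_le h0))

lemma abs_arctan_le (x : ℝ) : |arctan x| ≤ |x| := by
  have key : ∀ y : ℝ, 0 ≤ y → arctan y ≤ y := fun y hy => by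
    have := Real.le_tan (x := arctan y) (Real.arctan_nonneg.mpr hy) (Real.arctan_lt_pi_div_two y)
    rwa [Real.tan_arctan] at this
  rcases le_total 0 x with h | h
  · rw [abs_of_nonneg h, abs_of_nonneg (Real.arctan_nonneg.mpr h)]; exact key x h
  · rw [abs_of_nonpos h, abs_of_nonpos (Real.arctan_le_zero.mpr h), ← Real.arctan_neg]
    exact key _ (by linarith)

/-- The fixed point equations of the induced map on `S² × S²`. -/
structure FixEq (p1 p2 p3 q1 q2 q3 : ℝ) : Prop where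
  f1 : rB (π + al p1 q3) p2 p3 = p3
  f2 : rA (-arctan (1 / 4 * p1)) q1 q2 = q1
  f3 : rA (-arctan (1 / 4 * q1)) p1 (rA (π + al p1 q3) p2 p3) = p1
  f4 : rB (-arctan (1 / 4 * q1)) p1 (rA (π + al p1 q3) p2 p3) = p2
  f5 : rA (al q1 p3) (rB (-arctan (1 / 4 * p1)) q1 q2) q3 = q2
  f6 : rB (al q1 p3) (rB (-arctan (1 / 4 * p1)) q1 q2) q3 = q3

lemma FixEq.cases {p1 p2 p3 q1 q2 q3 : ℝ} (h : FixEq p1 p2 p3 q1 q2 q3)
    (hp : p1 ^ 2 + p2 ^ 2 + p3 ^ 2 = 1) (hq : q1 ^ 2 + q2 ^ 2 + q3 ^ 2 = 1) :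
    (p1 = 0 ∧ p2 = 0 ∧ p3 = 1 ∧ q1 = 0 ∧ q2 = 0 ∧ q3 = 1) ∨
      (q1 = p1 ∧ q3 = p3 ∧ p2 = 1 / 4 * p1 ^ 2 ∧ q2 = -p2 ∧ Sol p1 (-p3)) := by
  have hp3' : -1 ≤ p3 := by nlinarith [sq_nonneg p1, sq_nonneg p2]
  have hq3' : -1 ≤ q3 := by nlinarith [sq_nonneg q1, sq_nonneg q2]
  have hp3 : p3 ≤ 1 := by nlinarith [sq_nonneg p1, sq_nonneg p2]
  have hq3 : q3 ≤ 1 := by nlinarith [sq_nonneg q1, sq_nonneg q2]
  have F1 := rB_fixed (cos_pi_al_ne hq3' hq3) h.f1
  have F2 := rA_fixed (cos_arc_ne _) h.f2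
  have F4 := rA_fixed (cos_arc_ne _) h.f3
  have F3 := rB_fixed (cos_al_ne hp3' hp3) h.f6
  rw [h.f4] at F4
  rw [h.f5] at F3
  rw [tan_pi_al] at F1
  rw [tan_arc] at F2 F4
  have pN : p3 = 1 → p1 = 0 ∧ p2 = 0 := fun e => by
    rw [e] at hp
    constructor <;> nlinarith [sq_nonneg p1, sq_nonneg p2]
  have qN : q3 = 1 → q1 = 0 ∧ q2 = 0 := fun e => by
    rw [e] at hq
    constructor <;> nlinarith [sq_nonneg q1, sq_nonneg q2]
  have k1 : q3 = 1 → p3 = 1 := fun e => by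
    by_contra hne
    have ht := tan_al_pos (s := q1) hp3' (lt_of_le_of_ne hp3 hne)
    obtain ⟨e1, e2⟩ := qN e
    rcases F3 with ⟨a, -⟩ | ⟨a, b⟩
    · exact ht.ne' a
    · rw [e] at a; linarith
  have k2 : p3 = 1 → q3 = 1 := fun e => by
    by_contra hne
    have ht := tan_al_pos (s := p1) hq3' (lt_of_le_of_ne hq3 hne)
    obtain ⟨e1, e2⟩ := pN e
    rcases F1 with ⟨a, -⟩ | ⟨a, b⟩
    · exact ht.ne' a
    · rw [e] at a; linarith
  by_cases hN : p3 = 1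
  · left
    exact ⟨(pN hN).1, (pN hN).2, hN, (qN (k2 hN)).1, (qN (k2 hN)).2, k2 hN⟩
  · right
    have hN' : q3 ≠ 1 := fun e => hN (k1 e)
    have hp3l := lt_of_le_of_ne hp3 hN
    have hq3l := lt_of_le_of_ne hq3 hN'
    have t1 := tan_al_pos (s := p1) hq3' hq3l
    have t3 := tan_al_pos (s := q1) hp3' hp3l
    obtain ⟨a1, a2⟩ := F1.resolve_left (fun a => t1.ne' a.1)
    obtain ⟨b1, b2⟩ := F3.resolve_left (fun a => t3.ne' a.1)
    have e1 : p2 = 1 / 4 * p1 * q1 := by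
      rcases F4 with ⟨c1, c2⟩ | ⟨c1, c2⟩
      · have : q1 = 0 := by linarith
        rw [this]; linarith
      · linarith
    have e2 : q2 = -(1 / 4 * p1 * q1) := by
      rcases F2 with ⟨c1, c2⟩ | ⟨c1, c2⟩
      · have : p1 = 0 := by linarith
        rw [this]; linarith
      · linarith
    obtain ⟨g1, g2, g3⟩ := classify hp hq hp3l hq3l e1 e2 (by linarith) (by linarith)
    refine ⟨g1, g2, ?_, by linarith, g3⟩
    rw [e1, g1]; ring

lemma Sol.le_one {u x : ℝ} (h : Sol u x) : x ≤ 1 := by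
  obtain ⟨h0, h1, -⟩ := h
  nlinarith [sq_nonneg u, sq_nonneg (1 / 4 * u ^ 2)]

lemma Sol.fixEq {u x : ℝ} (h : Sol u x) :
    FixEq u (1 / 4 * u ^ 2) (-x) u (-(1 / 4 * u ^ 2)) (-x) := by
  have h1 := h.le_one
  obtain ⟨h0, -, h2⟩ := h
  have A1 := rB_of (θ := π + al u (-x)) (a := 1 / 4 * u ^ 2) (b := -x)
    (cos_pi_al_ne (by linarith) (by linarith)) (by rw [tan_pi_al]; linarith)
  have A2 := rA_of (θ := -arctan (1 / 4 * u)) (a := u) (b := -(1 / 4 * u ^ 2))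
    (cos_arc_ne _) (by rw [tan_arc]; ring)
  have A3 := rB_of (θ := al u (-x)) (a := 1 / 4 * u ^ 2) (b := -x)
    (cos_al_ne (by linarith) (by linarith)) (by linarith)
  refine ⟨A1.1, A2.1, ?_, ?_, ?_, ?_⟩
  · rw [A1.2]; exact A2.1
  · rw [A1.2, A2.2, neg_neg]
  · rw [A2.2, neg_neg]; exact A3.2
  · rw [A2.2, neg_neg]; exact A3.1

lemma Sol.neg {u x : ℝ} (h : Sol u x) : Sol (-u) x := by
  obtain ⟨h0, h1, h2⟩ := h
  refine ⟨h0, by linear_combination h1, ?_⟩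
  have : al (-u) (-x) = al u (-x) := by unfold al; ring
  rw [this, h2]; ring

end Crest.Agent.R205
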