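import Mathlib
import Crest.Agent.R205.Flow
import Crest.Agent.R205.Real2

/-! The six complex structures on `ℝ⁴` and the time-one map (row 205). -/

namespace Crest.Agent.R205

open Crest.GeometryTopology.Quadric
open scoped ContDiff

noncomputable def I1 : V →L[ℂ] V := LinearMap.toContinuousLinearMap
  { toFun := fun z => ![z 1, -z 0, z 3, -z 2, 0]
    map_add' := fun u w => by ext i; fin_cases i <;> simp <;> ring
    map_smul' := fun c u => by ext i; fin_cases i <;> simp }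

noncomputable def I2 : V →L[ℂ] V := LinearMap.toContinuousLinearMap
  { toFun := fun z => ![z 2, -z 3, -z 0, z 1, 0]
    map_add' := fun u w => by ext i; fin_cases i <;> simp <;> ring
    map_smul' := fun c u => by ext i; fin_cases i <;> simp }

noncomputable def I3 : V →L[ℂ] V := LinearMap.toContinuousLinearMap
  { toFun := fun z => ![z 3, z 2, -z 1, -z 0, 0]
    map_add' := fun u w => by ext i; fin_cases i <;> simp <;> ring
    map_smul' := fun c u => by ext i; fin_cases i <;> simp }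

noncomputable def J1 : V →L[ℂ] V := LinearMap.toContinuousLinearMap
  { toFun := fun z => ![z 1, -z 0, -z 3, z 2, 0]
    map_add' := fun u w => by ext i; fin_cases i <;> simp <;> ring
    map_smul' := fun c u => by ext i; fin_cases i <;> simp }

noncomputable def J2 : V →L[ℂ] V := LinearMap.toContinuousLinearMap
  { toFun := fun z => ![-z 2, -z 3, z 0, z 1, 0]
    map_add' := fun u w => by ext i; fin_cases i <;> simp <;> ring
    map_smul' := fun c u => by ext i; fin_cases i <;> simp }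

noncomputable def J3 : V →L[ℂ] V := LinearMap.toContinuousLinearMap
  { toFun := fun z => ![z 3, -z 2, z 1, -z 0, 0]
    map_add' := fun u w => by ext i; fin_cases i <;> simp <;> ring
    map_smul' := fun c u => by ext i; fin_cases i <;> simp }

lemma I1_apply (z : V) : I1 z = ![z 1, -z 0, z 3, -z 2, 0] := rfl
lemma I2_apply (z : V) : I2 z = ![z 2, -z 3, -z 0, z 1, 0] := rfl
lemma I3_apply (z : V) : I3 z = ![z 3, z 2, -z 1, -z 0, 0] := rfl
lemma J1_apply (z : V) : J1 z = ![z 1, -z 0, -z 3, z 2, 0] := rfl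
lemma J2_apply (z : V) : J2 z = ![-z 2, -z 3, z 0, z 1, 0] := rfl
lemma J3_apply (z : V) : J3 z = ![z 3, -z 2, z 1, -z 0, 0] := rfl

macro "vec_tac" : tactic =>
  `(tactic| (intro z; ext i; fin_cases i <;>
      simp [I1_apply, I2_apply, I3_apply, J1_apply, J2_apply, J3_apply, P_apply]))

macro "form_tac" : tactic =>
  `(tactic| (intro u w; simp [herm, bil, Fin.sum_univ_five, I1_apply, I2_apply, I3_apply, J1_apply,
      J2_apply, J3_apply]; ring))

lemma good_I1 : Good I1 := ⟨by vec_tac, by form_tac, by form_tac, by vec_tac, by vec_tac⟩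
lemma good_I2 : Good I2 := ⟨by vec_tac, by form_tac, by form_tac, by vec_tac, by vec_tac⟩
lemma good_I3 : Good I3 := ⟨by vec_tac, by form_tac, by form_tac, by vec_tac, by vec_tac⟩
lemma good_J1 : Good J1 := ⟨by vec_tac, by form_tac, by form_tac, by vec_tac, by vec_tac⟩
lemma good_J2 : Good J2 := ⟨by vec_tac, by form_tac, by form_tac, by vec_tac, by vec_tac⟩
lemma good_J3 : Good J3 := ⟨by vec_tac, by form_tac, by form_tac, by vec_tac, by vec_tac⟩

lemma I2I1 : ∀ z, I2 (I1 z) = I3 z := by vec_tac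
lemma I1I2 : ∀ z, I1 (I2 z) = -I3 z := by vec_tac
lemma I1I3 : ∀ z, I1 (I3 z) = I2 z := by vec_tac
lemma I3I1 : ∀ z, I3 (I1 z) = -I2 z := by vec_tac
lemma J2J1 : ∀ z, J2 (J1 z) = J3 z := by vec_tac
lemma J1J2 : ∀ z, J1 (J2 z) = -J3 z := by vec_tac
lemma J1J3 : ∀ z, J1 (J3 z) = J2 z := by vec_tac
lemma J3J1 : ∀ z, J3 (J1 z) = -J2 z := by vec_tac
lemma I1J1 : ∀ z, I1 (J1 z) = J1 (I1 z) := by vec_tac
lemma I2J1 : ∀ z, I2 (J1 z) = J1 (I2 z) := by vec_tac
lemma I3J1 : ∀ z, I3 (J1 z) = J1 (I3 z) := by vec_tac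
lemma I1J3 : ∀ z, I1 (J3 z) = J3 (I1 z) := by vec_tac
lemma I2J3 : ∀ z, I2 (J3 z) = J3 (I2 z) := by vec_tac
lemma I3J3 : ∀ z, I3 (J3 z) = J3 (I3 z) := by vec_tac
lemma I1J2 : ∀ z, I1 (J2 z) = J2 (I1 z) := by vec_tac
lemma I3J2 : ∀ z, I3 (J2 z) = J2 (I3 z) := by vec_tac

/-- first step. -/
noncomputable def T1 (z : V) : V := flow Real.pi I1 J3 1 z

/-- second step. -/
noncomputable def T2 (z : V) : V := flow 0 J1 I3 1 z

section step1
variable (z : V)

lemma T1_p1 : mu I1 (T1 z) = mu I1 z := mu_flow_fst good_I1 good_J3 I1J3 _ _ _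

lemma T1_q3 : mu J3 (T1 z) = mu J3 z := mu_flow_snd good_I1 good_J3 I1J3 _ _ _

lemma T1_p2 : mu I2 (T1 z) = rA (Real.pi + al (mu I1 z) (mu J3 z)) (mu I2 z) (mu I3 z) := by
  simp only [T1, flow, one_mul, ang1, rA]
  rw [mu_rot_fst good_I1 good_I2 good_I3 I2I1 I1I2, mu_rot_comm good_J3 good_I2 I2J3,
    mu_rot_comm good_J3 good_I3 I3J3]

lemma T1_p3 : mu I3 (T1 z) = rB (Real.pi + al (mu I1 z) (mu J3 z)) (mu I2 z) (mu I3 z) := by
  simp only [T1, flow, one_mul, ang1, rB]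
  rw [mu_rot_snd good_I1 good_I2 good_I3 I2I1 I1I2, mu_rot_comm good_J3 good_I2 I2J3,
    mu_rot_comm good_J3 good_I3 I3J3]

lemma T1_q1 : mu J1 (T1 z) = rA (-Real.arctan (1 / 4 * mu I1 z)) (mu J1 z) (mu J2 z) := by
  simp only [T1, flow, one_mul, ang2, rA]
  rw [mu_rot_comm good_I1 good_J1 (fun z => (I1J1 z).symm),
    mu_rot_fst good_J3 good_J1 good_J2 J1J3 J3J1]

lemma T1_q2 : mu J2 (T1 z) = rB (-Real.arctan (1 / 4 * mu I1 z)) (mu J1 z) (mu J2 z) := by
  simp only [T1, flow, one_mul, ang2, rB]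
  rw [mu_rot_comm good_I1 good_J2 (fun z => (I1J2 z).symm),
    mu_rot_snd good_J3 good_J1 good_J2 J1J3 J3J1]

lemma T2_q1 : mu J1 (T2 z) = mu J1 z :=
  mu_flow_fst good_J1 good_I3 (fun z => (I3J1 z).symm) _ _ _

lemma T2_p3 : mu I3 (T2 z) = mu I3 z :=
  mu_flow_snd good_J1 good_I3 (fun z => (I3J1 z).symm) _ _ _

lemma T2_q2 : mu J2 (T2 z) = rA (al (mu J1 z) (mu I3 z)) (mu J2 z) (mu J3 z) := by
  simp only [T2, flow, one_mul, ang1, rA, zero_add]
  rw [mu_rot_fst good_J1 good_J2 good_J3 J2J1 J1J2,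
    mu_rot_comm good_I3 good_J2 (fun z => (I3J2 z).symm),
    mu_rot_comm good_I3 good_J3 (fun z => (I3J3 z).symm)]

lemma T2_q3 : mu J3 (T2 z) = rB (al (mu J1 z) (mu I3 z)) (mu J2 z) (mu J3 z) := by
  simp only [T2, flow, one_mul, ang1, rB, zero_add]
  rw [mu_rot_snd good_J1 good_J2 good_J3 J2J1 J1J2,
    mu_rot_comm good_I3 good_J2 (fun z => (I3J2 z).symm),
    mu_rot_comm good_I3 good_J3 (fun z => (I3J3 z).symm)]

lemma T2_p1 : mu I1 (T2 z) = rA (-Real.arctan (1 / 4 * mu J1 z)) (mu I1 z) (mu I2 z) := by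
  simp only [T2, flow, one_mul, ang2, rA]
  rw [mu_rot_comm good_J1 good_I1 I1J1, mu_rot_fst good_I3 good_I1 good_I2 I1I3 I3I1]

lemma T2_p2 : mu I2 (T2 z) = rB (-Real.arctan (1 / 4 * mu J1 z)) (mu I1 z) (mu I2 z) := by
  simp only [T2, flow, one_mul, ang2, rB]
  rw [mu_rot_comm good_J1 good_I2 I2J1, mu_rot_snd good_I3 good_I1 good_I2 I1I3 I3I1]

end step1

/-- all six moment map components agree. -/
structure SameMu (z w : V) : Prop where
  e1 : mu I1 w = mu I1 z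
  e2 : mu I2 w = mu I2 z
  e3 : mu I3 w = mu I3 z
  e4 : mu J1 w = mu J1 z
  e5 : mu J2 w = mu J2 z
  e6 : mu J3 w = mu J3 z

lemma sameMu_iff (z : V) : SameMu z (T2 (T1 z)) ↔
    FixEq (mu I1 z) (mu I2 z) (mu I3 z) (mu J1 z) (mu J2 z) (mu J3 z) := by
  constructor
  · rintro ⟨e1, e2, e3, e4, e5, e6⟩
    rw [T2_p3] at e3
    rw [T2_q1] at e4
    rw [T2_p1, e4, T1_p1, T1_p2] at e1
    rw [T2_p2, e4, T1_p1, T1_p2] at e2
    rw [T2_q2, e4, e3, T1_q2, T1_q3] at e5
    rw [T2_q3, e4, e3, T1_q2, T1_q3] at e6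
    rw [T1_p3] at e3
    rw [T1_q1] at e4
    exact ⟨e3, e4, e1, e2, e5, e6⟩
  · rintro ⟨f1, f2, f3, f4, f5, f6⟩
    have e3 : mu I3 (T1 z) = mu I3 z := by rw [T1_p3, f1]
    have e4 : mu J1 (T1 z) = mu J1 z := by rw [T1_q1, f2]
    refine ⟨?_, ?_, ?_, ?_, ?_, ?_⟩
    · rw [T2_p1, e4, T1_p1, T1_p2, f3]
    · rw [T2_p2, e4, T1_p1, T1_p2, f4]
    · rw [T2_p3, e3]
    · rw [T2_q1, e4]
    · rw [T2_q2, e4, e3, T1_q2, T1_q3, f5]
    · rw [T2_q3, e4, e3, T1_q2, T1_q3, f6]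

lemma p_sq (z : V) : mu I1 z ^ 2 + mu I2 z ^ 2 + mu I3 z ^ 2 =
    (herm z (P z)).re ^ 2 - ((bil z (P z)).re ^ 2 + (bil z (P z)).im ^ 2) := by
  simp [mu, herm, bil, Fin.sum_univ_five, I1_apply, I2_apply, I3_apply, P_apply]
  ring

lemma q_sq (z : V) : mu J1 z ^ 2 + mu J2 z ^ 2 + mu J3 z ^ 2 =
    (herm z (P z)).re ^ 2 - ((bil z (P z)).re ^ 2 + (bil z (P z)).im ^ 2) := by
  simp [mu, herm, bil, Fin.sum_univ_five, J1_apply, J2_apply, J3_apply, P_apply]
  ring

lemma P_eq_self {z : V} (h : z 4 = 0) : P z = z := by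
  ext i; fin_cases i <;> simp [P_apply, h]

lemma p_sq_one {z : V} (hz : z ∈ unitCone) (h : z 4 = 0) :
    mu I1 z ^ 2 + mu I2 z ^ 2 + mu I3 z ^ 2 = 1 := by
  rw [mem_cone_iff] at hz
  rw [p_sq, P_eq_self h, hz.1, hz.2]; simp

lemma q_sq_one {z : V} (hz : z ∈ unitCone) (h : z 4 = 0) :
    mu J1 z ^ 2 + mu J2 z ^ 2 + mu J3 z ^ 2 = 1 := by
  rw [mem_cone_iff] at hz
  rw [q_sq, P_eq_self h, hz.1, hz.2]; simp

lemma hermP_sq_le {z : V} (hz : z ∈ unitCone) : (herm z (P z)).re ^ 2 ≤ 1 := by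
  rw [mem_cone_iff] at hz
  have h1 : (herm z z).re = 1 := by rw [hz.1]; simp
  have h2 : (herm z z).re = (herm z (P z)).re + ((z 4).re ^ 2 + (z 4).im ^ 2) := by
    simp [herm, Fin.sum_univ_five, P_apply]; ring
  have h3 : 0 ≤ (herm z (P z)).re := by
    simp [herm, Fin.sum_univ_five, P_apply]
    nlinarith [mul_self_nonneg (z 0).re, mul_self_nonneg (z 0).im, mul_self_nonneg (z 1).re,
      mul_self_nonneg (z 1).im, mul_self_nonneg (z 2).re, mul_self_nonneg (z 2).im,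
      mul_self_nonneg (z 3).re, mul_self_nonneg (z 3).im]
  have h4 : (herm z (P z)).re ≤ 1 := by nlinarith [sq_nonneg (z 4).re, sq_nonneg (z 4).im]
  nlinarith

lemma p_sq_le {z : V} (hz : z ∈ unitCone) : mu I1 z ^ 2 + mu I2 z ^ 2 + mu I3 z ^ 2 ≤ 1 := by
  have := hermP_sq_le hz
  rw [p_sq]; nlinarith [sq_nonneg (bil z (P z)).re, sq_nonneg (bil z (P z)).im]

lemma q_sq_le {z : V} (hz : z ∈ unitCone) : mu J1 z ^ 2 + mu J2 z ^ 2 + mu J3 z ^ 2 ≤ 1 := by
  have := hermP_sq_le hz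
  rw [q_sq]; nlinarith [sq_nonneg (bil z (P z)).re, sq_nonneg (bil z (P z)).im]

/-- the skew matrix of `z` applied to `w`. -/
noncomputable def K (z w : V) : V :=
  mu I1 z • I1 w + mu I2 z • I2 w + mu I3 z • I3 w + mu J1 z • J1 w + mu J2 z • J2 w
    + mu J3 z • J3 w

lemma K_eq {z w : V} (hz : z 4 = 0) (hw : w 4 = 0) :
    K z w = (-2 * Complex.I) • (bil z w • (fun j => starRingEnd ℂ (z j)) - herm z w • z) := by
  ext i
  fin_cases i <;>
    (apply Complex.ext <;>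
      simp [K, mu, herm, bil, Fin.sum_univ_five, I1_apply, I2_apply, I3_apply, J1_apply, J2_apply,
        J3_apply, hz, hw] <;> ring)

lemma SameMu.eq_smul {z w : V} (h : SameMu z w) (hz : z ∈ unitCone) (hw : w ∈ unitCone)
    (hz4 : z 4 = 0) (hw4 : w 4 = 0) : w = herm z w • z := by
  rw [mem_cone_iff] at hz hw
  have hK : K z w = K w w := by simp only [K, h.e1, h.e2, h.e3, h.e4, h.e5, h.e6]
  rw [K_eq hz4 hw4, K_eq hw4 hw4, hw.1, hw.2] at hK
  have hc : (-2 * Complex.I : ℂ) ≠ 0 := by simp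
  have h1 := smul_right_injective V hc hK
  simp only [zero_smul, one_smul, zero_sub] at h1
  have h2 : ∀ j, bil z w * starRingEnd ℂ (z j) - herm z w * z j = -w j := fun j => by
    simpa using congrFun h1 j
  have h3 : bil z w = 0 := by
    have a : ∑ j, z j * (bil z w * starRingEnd ℂ (z j) - herm z w * z j) = ∑ j, z j * -w j :=
      Finset.sum_congr rfl fun j _ => by rw [h2 j]
    have b : ∑ j, z j * (bil z w * starRingEnd ℂ (z j) - herm z w * z j) =
        bil z w * herm z z - herm z w * bil z z := by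
      generalize bil z w = s
      generalize herm z w = t
      simp only [herm, bil, Fin.sum_univ_five]; ring
    have c : ∑ j, z j * -w j = -bil z w := by simp [bil]
    rw [b, c, hz.1, hz.2] at a
    linear_combination (1 / 2 : ℂ) * a
  ext j
  have := h2 j
  rw [h3] at this
  simp only [Pi.smul_apply, smul_eq_mul]
  linear_combination this

end Crest.Agent.R205
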