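import Mathlib
import Crest.Agent.R205.Ops

/-! Fixed points of the time-one map (row 205). -/

namespace Crest.Agent.R205

open Crest.GeometryTopology.Quadric
open scoped ContDiff

/-- Euclidean norm. -/
noncomputable def nrm (u : V) : ℝ := ‖(WithLp.toLp 2 u : EuclideanSpace ℂ (Fin 5))‖

lemma nrm_nonneg (u : V) : 0 ≤ nrm u := norm_nonneg _

lemma nrm_add_le (u v : V) : nrm (u + v) ≤ nrm u + nrm v := by
  unfold nrm
  rw [WithLp.toLp_add]
  exact norm_add_le _ _

lemma nrm_sq (u : V) : nrm u ^ 2 = (herm u u).re := by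
  unfold nrm
  rw [EuclideanSpace.norm_sq_eq]
  simp [herm, Complex.sq_norm, Complex.normSq_apply]

lemma nrm_neg (u : V) : nrm (-u) = nrm u := by
  unfold nrm
  rw [WithLp.toLp_neg, norm_neg]

lemma nrm_two (u : V) : nrm (u + u) = 2 * nrm u := by
  unfold nrm
  rw [WithLp.toLp_add, ← two_smul ℝ, norm_smul]; simp

lemma eq_zero_of_nrm {u : V} (h : nrm u = 0) : u = 0 := by
  unfold nrm at h
  have := norm_eq_zero.mp h
  simpa using this

variable {A : V →L[ℂ] V}

lemma nrm_rot (hA : Good A) (θ : ℝ) (u : V) : nrm (rot A θ u) = nrm u := by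
  have := nrm_sq (rot A θ u)
  rw [herm_rot hA, ← nrm_sq] at this
  exact (pow_left_inj₀ (nrm_nonneg _) (nrm_nonneg _) two_ne_zero).mp this

lemma P_rot (hA : Good A) (θ : ℝ) (u : V) : P (rot A θ u) = rot A θ (P u) := by
  simp only [rot, map_add, ContinuousLinearMap.map_smul_of_tower, hA.AP, hA.PA]

lemma nrm_P_rot (hA : Good A) (θ : ℝ) (u : V) : nrm (P (rot A θ u)) = nrm (P u) := by
  rw [P_rot hA, nrm_rot hA]

lemma nrm_disp (hA : Good A) (θ : ℝ) (u : V) :
    nrm (P (rot A θ u) - P u) ≤ |θ| * nrm (P u) := by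
  have e : P (rot A θ u) - P u = (Real.cos θ - 1) • P u + Real.sin θ • A u := by
    simp only [rot, map_add, ContinuousLinearMap.map_smul_of_tower, hA.PA, PP]
    abel
  have h1 : ((Real.cos θ : ℝ) : ℂ) ^ 2 + ((Real.sin θ : ℝ) : ℂ) ^ 2 = 1 := by
    exact_mod_cast Real.cos_sq_add_sin_sq θ
  have h2 : herm (P (rot A θ u) - P u) (P (rot A θ u) - P u) =
      ((2 - 2 * Real.cos θ : ℝ) : ℂ) * herm (P u) (P u) := by
    rw [e]
    simp only [herm_add_left, herm_add_right, herm_rsmul_left, herm_rsmul_right, hA.skew,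
      herm_P, PP, hA.AP, hA.PA, hA.sq, herm_neg_right]
    push_cast at h1 ⊢
    linear_combination (herm u (P u)) * h1
  have h3 : nrm (P (rot A θ u) - P u) ^ 2 = (2 - 2 * Real.cos θ) * nrm (P u) ^ 2 := by
    rw [nrm_sq, nrm_sq, h2, Complex.re_ofReal_mul]
  have h4 := Real.one_sub_sq_div_two_le_cos (x := θ)
  apply le_of_sq_le_sq _ (mul_nonneg (abs_nonneg _) (nrm_nonneg _))
  rw [h3, mul_pow, sq_abs]
  apply mul_le_mul_of_nonneg_right _ (sq_nonneg _)
  linarith

lemma P_rot_pi (hA : Good A) (θ : ℝ) (u : V) :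
    P (rot A (Real.pi + θ) u) = -P (rot A θ u) := by
  simp only [rot, map_add, ContinuousLinearMap.map_smul_of_tower, hA.PA, PP]
  rw [add_comm Real.pi, Real.cos_add_pi, Real.sin_add_pi]
  module

lemma T1_mem {z : V} (hz : z ∈ unitCone) : T1 z ∈ unitCone := flow_mem good_I1 good_J3 _ _ hz

lemma T2_mem {z : V} (hz : z ∈ unitCone) : T2 z ∈ unitCone := flow_mem good_J1 good_I3 _ _ hz

lemma T_four (z : V) : T2 (T1 z) 4 = z 4 := by
  simp only [T1, T2, flow, rot_four good_I1, rot_four good_I3, rot_four good_J1, rot_four good_J3]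

lemma abs_al_le {s r : ℝ} (h : r ^ 2 ≤ 1) : |al s r| ≤ 1 / 2 := by
  have h1 : -1 ≤ r := by nlinarith
  have h2 : r ≤ 1 := by nlinarith
  rw [abs_of_nonneg (al_nonneg h2)]
  exact al_le h1

lemma abs_arc_le {s : ℝ} (h : s ^ 2 ≤ 1) : |-Real.arctan (1 / 4 * s)| ≤ 1 / 4 := by
  rw [abs_neg]
  refine (abs_arctan_le _).trans ?_
  have h1 : -1 ≤ s := by nlinarith
  have h2 : s ≤ 1 := by nlinarith
  rw [abs_le]; constructor <;> linarith

lemma four_eq_zero_of_fixed {z : V} (hz : z ∈ unitCone) (h : T2 (T1 z) = z) : z 4 = 0 := by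
  have hy := T1_mem hz
  have bp := p_sq_le hz
  have bq := q_sq_le hz
  have bp' := p_sq_le hy
  have bq' := q_sq_le hy
  set θ1 := al (mu I1 z) (mu J3 z) with hθ1
  set θ2 := -Real.arctan (1 / 4 * mu I1 z) with hθ2
  set θ3 := al (mu J1 (T1 z)) (mu I3 (T1 z)) with hθ3
  set θ4 := -Real.arctan (1 / 4 * mu J1 (T1 z)) with hθ4
  have b1 : |θ1| ≤ 1 / 2 := abs_al_le (by nlinarith [sq_nonneg (mu J1 z), sq_nonneg (mu J2 z)])
  have b2 : |θ2| ≤ 1 / 4 := abs_arc_le (by nlinarith [sq_nonneg (mu I2 z), sq_nonneg (mu I3 z)])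
  have b3 : |θ3| ≤ 1 / 2 :=
    abs_al_le (by nlinarith [sq_nonneg (mu I1 (T1 z)), sq_nonneg (mu I2 (T1 z))])
  have b4 : |θ4| ≤ 1 / 4 :=
    abs_arc_le (by nlinarith [sq_nonneg (mu J2 (T1 z)), sq_nonneg (mu J3 (T1 z))])
  have e1 : T1 z = rot I1 (Real.pi + θ1) (rot J3 θ2 z) := by
    simp only [T1, flow, one_mul, ang1, ang2, hθ1, hθ2]
  have e2 : T2 (T1 z) = rot J1 θ3 (rot I3 θ4 (T1 z)) := by
    simp only [T2, flow, one_mul, ang1, ang2, hθ3, hθ4, zero_add]
  have n2 : nrm (P (rot J3 θ2 z)) = nrm (P z) := nrm_P_rot good_J3 _ _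
  have ny : nrm (P (T1 z)) = nrm (P z) := by rw [e1, nrm_P_rot good_I1, n2]
  have n4 : nrm (P (rot I3 θ4 (T1 z))) = nrm (P z) := by rw [nrm_P_rot good_I3, ny]
  have d2 := nrm_disp good_J3 θ2 z
  have d1 := nrm_disp good_I1 θ1 (rot J3 θ2 z)
  have d4 := nrm_disp good_I3 θ4 (T1 z)
  have d3 := nrm_disp good_J1 θ3 (rot I3 θ4 (T1 z))
  rw [n2] at d1
  rw [ny] at d4
  rw [n4, ← e2, h] at d3
  have hPy : P (T1 z) = -P (rot I1 θ1 (rot J3 θ2 z)) := by rw [e1, P_rot_pi good_I1]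
  have key : P z + P z = ((P z - P (rot I3 θ4 (T1 z))) + (P (rot I3 θ4 (T1 z)) - P (T1 z))) +
      (-(P (rot I1 θ1 (rot J3 θ2 z)) - P (rot J3 θ2 z)) + -(P (rot J3 θ2 z) - P z)) := by
    rw [hPy]; abel
  have t := nrm_two (P z)
  rw [key] at t
  have s1 := nrm_add_le ((P z - P (rot I3 θ4 (T1 z))) + (P (rot I3 θ4 (T1 z)) - P (T1 z)))
    (-(P (rot I1 θ1 (rot J3 θ2 z)) - P (rot J3 θ2 z)) + -(P (rot J3 θ2 z) - P z))
  have s2 := nrm_add_le (P z - P (rot I3 θ4 (T1 z))) (P (rot I3 θ4 (T1 z)) - P (T1 z))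
  have s3 := nrm_add_le (-(P (rot I1 θ1 (rot J3 θ2 z)) - P (rot J3 θ2 z)))
    (-(P (rot J3 θ2 z) - P z))
  rw [nrm_neg, nrm_neg] at s3
  have n0 := nrm_nonneg (P z)
  have m1 := mul_le_mul_of_nonneg_right b1 n0
  have m2 := mul_le_mul_of_nonneg_right b2 n0
  have m3 := mul_le_mul_of_nonneg_right b3 n0
  have m4 := mul_le_mul_of_nonneg_right b4 n0
  have hz0 : nrm (P z) = 0 := by linarith
  have hP := eq_zero_of_nrm hz0
  have a0 : z 0 = 0 := congrFun hP 0
  have a1 : z 1 = 0 := congrFun hP 1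
  have a2 : z 2 = 0 := congrFun hP 2
  have a3 : z 3 = 0 := congrFun hP 3
  have hb := ((mem_cone_iff z).mp hz).2
  simp only [bil, Fin.sum_univ_five, a0, a1, a2, a3, mul_zero, zero_add] at hb
  exact mul_self_eq_zero.mp hb

/-- the constant `1/√2`. -/
noncomputable def rt : ℝ := √(1 / 2)

lemma rt_mul : rt * rt = 1 / 2 := Real.mul_self_sqrt (by norm_num)

lemma rt_pos : 0 < rt := Real.sqrt_pos.mpr (by norm_num)

/-- cone points over the graph of a reflection. -/
noncomputable def zp (a b c : ℝ) : V :=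
  ![(rt : ℂ), Complex.I * (rt * a : ℝ), Complex.I * (rt * b : ℝ), Complex.I * (rt * c : ℝ), 0]

lemma zp_four (a b c : ℝ) : zp a b c 4 = 0 := rfl

lemma zp_mem {a b c : ℝ} (h : a ^ 2 + b ^ 2 + c ^ 2 = 1) : zp a b c ∈ unitCone := by
  rw [mem_cone_iff]
  have := rt_mul
  constructor
  · apply Complex.ext <;> simp [herm, zp, Fin.sum_univ_five]
    linear_combination (rt * rt) * h + 2 * this
  · apply Complex.ext <;> simp [bil, zp, Fin.sum_univ_five]
    linear_combination (-(rt * rt)) * h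

lemma zp_I1 (a b c : ℝ) : mu I1 (zp a b c) = a := by
  simp [mu, herm, zp, Fin.sum_univ_five, I1_apply]; linear_combination 2 * a * rt_mul

lemma zp_I2 (a b c : ℝ) : mu I2 (zp a b c) = b := by
  simp [mu, herm, zp, Fin.sum_univ_five, I2_apply]; linear_combination 2 * b * rt_mul

lemma zp_I3 (a b c : ℝ) : mu I3 (zp a b c) = c := by
  simp [mu, herm, zp, Fin.sum_univ_five, I3_apply]; linear_combination 2 * c * rt_mul

lemma zp_J1 (a b c : ℝ) : mu J1 (zp a b c) = a := by
  simp [mu, herm, zp, Fin.sum_univ_five, J1_apply]; linear_combination 2 * a * rt_mul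

lemma zp_J2 (a b c : ℝ) : mu J2 (zp a b c) = -b := by
  simp [mu, herm, zp, Fin.sum_univ_five, J2_apply]; linear_combination (-2) * b * rt_mul

lemma zp_J3 (a b c : ℝ) : mu J3 (zp a b c) = c := by
  simp [mu, herm, zp, Fin.sum_univ_five, J3_apply]; linear_combination 2 * c * rt_mul

lemma zp_span_inj {a b c a' b' c' : ℝ}
    (h : Submodule.span ℂ {zp a b c} = Submodule.span ℂ {zp a' b' c'}) : a = a' := by
  have h1 : zp a b c ∈ Submodule.span ℂ {zp a' b' c'} := by
    rw [← h]; exact Submodule.mem_span_singleton_self _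
  obtain ⟨k, hk⟩ := Submodule.mem_span_singleton.mp h1
  have hr : (rt : ℂ) ≠ 0 := by exact_mod_cast rt_pos.ne'
  have h0 : k * rt = rt := congrFun hk 0
  have hk1 : k = 1 := by
    have : (k - 1) * rt = 0 := by linear_combination h0
    exact sub_eq_zero.mp ((mul_eq_zero.mp this).resolve_right hr)
  rw [hk1, one_smul] at hk
  have := zp_I1 a b c
  rw [← hk, zp_I1] at this
  exact this.symm

lemma span_eq_of_sameMu {z w : V} (h : SameMu z w) (hz : z ∈ unitCone) (hw : w ∈ unitCone)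
    (hz4 : z 4 = 0) (hw4 : w 4 = 0) : Submodule.span ℂ {w} = Submodule.span ℂ {z} := by
  have e := h.eq_smul hz hw hz4 hw4
  have hne : herm z w ≠ 0 := by
    intro h0
    rw [h0, zero_smul] at e
    have := ((mem_cone_iff w).mp hw).1
    rw [e] at this
    simp [herm] at this
  conv_lhs => rw [e]
  exact Submodule.span_singleton_smul_eq (IsUnit.mk0 _ hne) _

/-- along a line through the degenerate point the time-one map is minus the identity. -/
lemma T_line (s : ℝ) : T2 (T1 (zp 0 0 1 + s • (![0, 1, 0, 0, 0] : V))) =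
    -(zp 0 0 1 + s • (![0, 1, 0, 0, 0] : V)) := by
  set z : V := zp 0 0 1 + s • (![0, 1, 0, 0, 0] : V) with hz
  have h4 : z 4 = 0 := by simp [hz, zp]
  have a1 : mu I1 z = 0 := by simp [hz, mu, herm, zp, Fin.sum_univ_five, I1_apply]
  have a2 : mu J1 z = 0 := by simp [hz, mu, herm, zp, Fin.sum_univ_five, J1_apply]
  have a3 : mu I3 z = 1 := by
    simp [hz, mu, herm, zp, Fin.sum_univ_five, I3_apply]; linear_combination 2 * rt_mul
  have a4 : mu J3 z = 1 := by
    simp [hz, mu, herm, zp, Fin.sum_univ_five, J3_apply]; linear_combination 2 * rt_mul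
  have e1 : T1 z = -z := by
    simp only [T1, flow, ang1, ang2, a1, a4, al, rot_zero, mul_zero, Real.arctan_zero, neg_zero,
      sub_self, zero_div, add_zero, one_mul]
    simp only [rot, Real.cos_pi, Real.sin_pi, P_eq_self h4]
    module
  have hn : ∀ B : V →L[ℂ] V, mu B (-z) = mu B z := fun B => by
    have := mu_smul (A := B) (-1) (by simp) z
    simpa using this
  rw [e1]
  simp only [T2, flow, ang1, ang2, hn, a2, a3, al, rot_zero, mul_zero, Real.arctan_zero, neg_zero,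
      sub_self, zero_div, add_zero]

end Crest.Agent.R205
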