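import Mathlib
import Crest.Agent.R205.Fixed

/-! The Hamiltonian isotopy and the count of its fixed points (row 205). -/

namespace Crest.Agent.R205

open Crest.GeometryTopology.Quadric
open scoped ContDiff

noncomputable def β1 (t : ℝ) : ℝ := Real.smoothTransition (3 * t)

noncomputable def β2 (t : ℝ) : ℝ := Real.smoothTransition (3 * t - 2)

lemma β1_smooth : ContDiff ℝ ∞ β1 :=
  Real.smoothTransition.contDiff.comp (contDiff_const.mul contDiff_id)

lemma β2_smooth : ContDiff ℝ ∞ β2 :=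
  Real.smoothTransition.contDiff.comp ((contDiff_const.mul contDiff_id).sub contDiff_const)

lemma dβ1_smooth : ContDiff ℝ ∞ (deriv β1) := (contDiff_infty_iff_deriv.mp β1_smooth).2

lemma dβ2_smooth : ContDiff ℝ ∞ (deriv β2) := (contDiff_infty_iff_deriv.mp β2_smooth).2

lemma β1_hasDeriv (t : ℝ) : HasDerivAt β1 (deriv β1 t) t :=
  ((contDiff_infty_iff_deriv.mp β1_smooth).1 t).hasDerivAt

lemma β2_hasDeriv (t : ℝ) : HasDerivAt β2 (deriv β2 t) t :=
  ((contDiff_infty_iff_deriv.mp β2_smooth).1 t).hasDerivAt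

lemma β1_ev {t : ℝ} (h : 1 / 3 < t) : β1 =ᶠ[nhds t] fun _ => 1 := by
  filter_upwards [lt_mem_nhds h] with s hs
  exact Real.smoothTransition.one_of_one_le (by linarith)

lemma β2_ev {t : ℝ} (h : t < 2 / 3) : β2 =ᶠ[nhds t] fun _ => 0 := by
  filter_upwards [gt_mem_nhds h] with s hs
  exact Real.smoothTransition.zero_of_nonpos (by linarith)

noncomputable def Psi (x : ℝ × V) : V := flow 0 J1 I3 (β2 x.1) (flow Real.pi I1 J3 (β1 x.1) x.2)

noncomputable def HH (x : ℝ × V) : ℝ :=
  deriv β1 x.1 * Ham Real.pi I1 J3 x.2 + deriv β2 x.1 * Ham 0 J1 I3 x.2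

lemma Psi_smooth : ContDiff ℝ ∞ Psi :=
  contDiff_flow _ _ _ (β2_smooth.comp contDiff_fst)
    (contDiff_flow _ _ _ (β1_smooth.comp contDiff_fst) contDiff_snd)

lemma HH_smooth : ContDiff ℝ ∞ HH :=
  ((dβ1_smooth.comp contDiff_fst).mul (contDiff_Ham _ _ _ contDiff_snd)).add
    ((dβ2_smooth.comp contDiff_fst).mul (contDiff_Ham _ _ _ contDiff_snd))

lemma Psi_one (z : V) : Psi (1, z) = T2 (T1 z) := by
  have h1 : β1 1 = 1 := Real.smoothTransition.one_of_one_le (by norm_num)
  have h2 : β2 1 = 1 := Real.smoothTransition.one_of_one_le (by norm_num)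
  simp only [Psi, h1, h2, T1, T2]

lemma Psi_zero (z : V) : Psi (0, z) = z := by
  have h1 : β1 0 = 0 := Real.smoothTransition.zero_of_nonpos (by norm_num)
  have h2 : β2 0 = 0 := Real.smoothTransition.zero_of_nonpos (by norm_num)
  simp only [Psi, h1, h2, flow_zero]

lemma Psi_deriv (t : ℝ) (z : V) : deriv (fun s : ℝ => Psi (s, z)) t =
    deriv β1 t • vf Real.pi I1 J3 (Psi (t, z)) + deriv β2 t • vf 0 J1 I3 (Psi (t, z)) := by
  rcases lt_or_ge t (2 / 3) with h | h
  · have e := β2_ev h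
    have e0 : β2 t = 0 := e.eq_of_nhds
    have e1 : deriv β2 t = 0 := by rw [e.deriv_eq]; simp
    have e2 : (fun s : ℝ => Psi (s, z)) =ᶠ[nhds t] fun s => flow Real.pi I1 J3 (β1 s) z := by
      filter_upwards [e] with s hs
      simp only [Psi, hs, flow_zero]
    rw [e2.deriv_eq, (hasDerivAt_flow good_I1 good_J3 I1J3 _ z (β1_hasDeriv t)).deriv, e1]
    simp only [Psi, e0, flow_zero, zero_smul, add_zero]
  · have e := β1_ev (t := t) (by linarith)
    have e0 : β1 t = 1 := e.eq_of_nhds
    have e1 : deriv β1 t = 0 := by rw [e.deriv_eq]; simp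
    have e2 : (fun s : ℝ => Psi (s, z)) =ᶠ[nhds t]
        fun s => flow 0 J1 I3 (β2 s) (flow Real.pi I1 J3 1 z) := by
      filter_upwards [e] with s hs
      simp only [Psi, hs]
    rw [e2.deriv_eq, (hasDerivAt_flow good_J1 good_I3 (fun z => (I3J1 z).symm) _ _
      (β2_hasDeriv t)).deriv, e1]
    simp only [Psi, e0, zero_smul, zero_add]

lemma HH_fderiv (t : ℝ) (y w : V) : fderiv ℝ (fun x : V => HH (t, x)) y w =
    2 * (herm (deriv β1 t • vf Real.pi I1 J3 y + deriv β2 t • vf 0 J1 I3 y) w).im := by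
  apply fderiv_line
  · have : ContDiff ℝ ∞ fun x : V => HH (t, x) :=
      HH_smooth.comp (contDiff_const.prodMk contDiff_id)
    exact this.differentiable (by simp) y
  · have h := ((hasDerivAt_Ham_line good_I1 good_J3 Real.pi y w).const_mul (deriv β1 t)).add
      ((hasDerivAt_Ham_line good_J1 good_I3 0 y w).const_mul (deriv β2 t))
    refine HasDerivAt.congr_deriv h ?_
    simp only [herm_add_left, herm_rsmul_left, Complex.add_im, Complex.im_ofReal_mul]
    ring

noncomputable def lift : HamiltonianConeLift where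
  Ψ := Psi
  H := HH
  smooth_Ψ := Psi_smooth
  smooth_H := HH_smooth
  mapsTo_cone := fun _ _ hz => flow_mem good_J1 good_I3 _ _ (flow_mem good_I1 good_J3 _ _ hz)
  compatible := fun t z _ c hc => ⟨c, by simp only [Psi, flow_smul _ _ c hc]⟩
  start := fun z _ => ⟨1, by rw [Psi_zero, one_smul]⟩
  invariant := fun t z _ c hc => by simp only [HH, Ham_smul _ c hc]
  hamilton := fun t _ z _ w _ => by rw [Psi_deriv, HH_fderiv]

lemma lift_one (z : V) : lift.Ψ (1, z) = T2 (T1 z) := Psi_one z

lemma sol_mem {u x : ℝ} (h : Sol u x) : zp u (1 / 4 * u ^ 2) (-x) ∈ unitCone :=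
  zp_mem (by linear_combination h.2.1)

lemma sol_fixed {u x : ℝ} (h : Sol u x) :
    Submodule.span ℂ {zp u (1 / 4 * u ^ 2) (-x)} ∈ fixedLines lift := by
  have hm := sol_mem h
  refine ⟨_, hm, rfl, ?_⟩
  rw [lift_one]
  have hs : SameMu (zp u (1 / 4 * u ^ 2) (-x)) (T2 (T1 (zp u (1 / 4 * u ^ 2) (-x)))) := by
    rw [sameMu_iff, zp_I1, zp_I2, zp_I3, zp_J1, zp_J2, zp_J3]
    exact h.fixEq
  rw [← span_eq_of_sameMu hs hm (T2_mem (T1_mem hm)) (zp_four _ _ _)
    (by rw [T_four, zp_four])]
  exact Submodule.mem_span_singleton_self _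

lemma N_mem : zp 0 0 1 ∈ unitCone := zp_mem (by norm_num)

lemma N_fix : T2 (T1 (zp 0 0 1)) = (-1 : ℂ) • zp 0 0 1 := by
  have := T_line 0
  simpa using this

lemma fixedLines_eq {u x : ℝ} (h : Sol u x) : fixedLines lift =
    {Submodule.span ℂ {zp 0 0 1}, Submodule.span ℂ {zp u (1 / 4 * u ^ 2) (-x)},
      Submodule.span ℂ {zp (-u) (1 / 4 * (-u) ^ 2) (-x)}} := by
  apply Set.Subset.antisymm
  · rintro ℓ ⟨z, hz, rfl, hfix⟩
    rw [lift_one] at hfix
    obtain ⟨c, hc⟩ := Submodule.mem_span_singleton.mp hfix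
    have h4 : z 4 = 0 := by
      by_contra hne
      have e : c * z 4 = z 4 := by
        have := congrFun hc 4
        rw [T_four] at this
        exact this
      have hc1 : c = 1 := by
        have : (c - 1) * z 4 = 0 := by linear_combination e
        exact sub_eq_zero.mp ((mul_eq_zero.mp this).resolve_right hne)
      rw [hc1, one_smul] at hc
      exact hne (four_eq_zero_of_fixed hz hc.symm)
    have hcn : ‖c‖ = 1 := by
      have h1 := ((mem_cone_iff _).mp (T2_mem (T1_mem hz))).1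
      rw [← hc, herm_smul_left, herm_smul_right, ((mem_cone_iff _).mp hz).1, mul_one,
        Complex.conj_mul'] at h1
      have h2 : ‖c‖ ^ 2 = 1 := by exact_mod_cast h1
      exact (pow_eq_one_iff_of_nonneg (norm_nonneg c) two_ne_zero).mp h2
    have hs : SameMu z (T2 (T1 z)) := by
      rw [← hc]
      exact ⟨mu_smul c hcn z, mu_smul c hcn z, mu_smul c hcn z, mu_smul c hcn z, mu_smul c hcn z,
        mu_smul c hcn z⟩
    rw [sameMu_iff] at hs
    rcases hs.cases (p_sq_one hz h4) (q_sq_one hz h4) with ⟨a1, a2, a3, a4, a5, a6⟩ |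
      ⟨a1, a2, a3, a4, a5⟩
    · left
      refine span_eq_of_sameMu ⟨?_, ?_, ?_, ?_, ?_, ?_⟩ N_mem hz (zp_four _ _ _) h4
      · rw [zp_I1, a1]
      · rw [zp_I2, a2]
      · rw [zp_I3, a3]
      · rw [zp_J1, a4]
      · rw [zp_J2, a5, neg_zero]
      · rw [zp_J3, a6]
    · right
      obtain ⟨b1, b2⟩ := a5.unique h
      have key : ∀ v : ℝ, Sol v x → mu I1 z = v →
          Submodule.span ℂ {z} = Submodule.span ℂ {zp v (1 / 4 * v ^ 2) (-x)} := by
        intro v hv e
        refine span_eq_of_sameMu ⟨?_, ?_, ?_, ?_, ?_, ?_⟩ (sol_mem hv) hz (zp_four _ _ _) h4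
        · rw [zp_I1, e]
        · rw [zp_I2, a3, e]
        · rw [zp_I3]; linarith
        · rw [zp_J1, a1, e]
        · rw [zp_J2, a4, a3, e]
        · rw [zp_J3, a2]; linarith
      rcases sq_eq_sq_iff_eq_or_eq_neg.mp b2 with e | e
      · left; exact key u h e
      · right; exact key (-u) h.neg e
  · rintro ℓ (rfl | rfl | rfl)
    · refine ⟨_, N_mem, rfl, ?_⟩
      rw [lift_one, N_fix]
      exact Submodule.smul_mem _ _ (Submodule.mem_span_singleton_self _)
    · exact sol_fixed h
    · exact sol_fixed h.neg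

theorem main : ∃ L : HamiltonianConeLift,
    (fixedLines L).ncard = 3 ∧ HasDegenerateFixedPoint L := by
  obtain ⟨u, x, hu, h⟩ := exists_sol
  refine ⟨lift, ?_, ?_⟩
  · rw [Set.ncard_eq_three]
    refine ⟨_, _, _, ?_, ?_, ?_, fixedLines_eq h⟩
    · intro e; have := zp_span_inj e; linarith
    · intro e; have := zp_span_inj e; linarith
    · intro e; have := zp_span_inj e; linarith
  · refine ⟨zp 0 0 1, N_mem, -1, by rw [lift_one, N_fix], ![0, 1, 0, 0, 0], ?_, ?_, 0, ?_⟩
    · constructor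
      · simp [herm, zp, Fin.sum_univ_five]
      · simp [zp, Fin.sum_univ_five]
    · intro r e
      have := congrFun e 1
      simp [zp] at this
    · apply fderiv_line
      · have : ContDiff ℝ ∞ fun x : V => Psi (1, x) :=
          Psi_smooth.comp (contDiff_const.prodMk contDiff_id)
        exact this.differentiable (by simp) _
      · simp only [lift_one, T_line]
        have := (((hasDerivAt_id (0 : ℝ)).smul_const (![0, 1, 0, 0, 0] : V)).const_add
          (zp 0 0 1)).neg
        refine HasDerivAt.congr_deriv this ?_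
        simp

end Crest.Agent.R205
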